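import Vale.Agent.P011.H280.Rl.Gen

/-!
The polar decomposition in the standard model.
-/

open NormedSpace Filter Topology

namespace Vale.Agent.P011.H518.Rl

open Vale.Agent.P011.MPQ Vale.Agent.P011.D4 Vale.Agent.P011.D4.Oct Vale.Agent.P011.E6
  Vale.Agent.P011.E6.Alb Vale.Agent.P011.H261.Rl Vale.Agent.P011.H280.Rl Vale.Agent.P011.H44.Rl
open scoped ComplexConjugate

/-- The trilinear form. -/
noncomputable def N3 (x y z : VC) : ℂ := tf (cross x y) z

theorem N3_self (x : VC) : N3 x x x = 6 * cub x := by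
  rw [N3, Alb.cross_self, tf_smul_left, tf_adj_self]
  ring

theorem N3_tri : H184.Pol.Tri N3 := by
  refine ⟨fun x x' y z => ?_, fun x y y' z => ?_, fun x y z z' => ?_, fun r x y z => ?_,
    fun r x y z => ?_, fun r x y z => ?_⟩
  · rw [N3, cross_add_left, tf_add_left]; rfl
  · rw [N3, cross_add_right, tf_add_left]; rfl
  · rw [N3, tf_add_right]; rfl
  · change tf (cross ((r : ℂ) • x) y) z = (r : ℂ) * tf (cross x y) z
    rw [cross_smul_left, tf_smul_left]
  · change tf (cross x ((r : ℂ) • y)) z = (r : ℂ) * tf (cross x y) z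
    rw [cross_smul_right, tf_smul_left]
  · change tf (cross x y) ((r : ℂ) • z) = (r : ℂ) * tf (cross x y) z
    rw [tf_smul_right]

theorem cub_of_N3 {f : RV} (h : ∀ x y z, N3 (f x) (f y) (f z) = N3 x y z) (x : VC) :
    cub (f x) = cub x := by
  have h1 := h x x x
  rw [N3_self, N3_self] at h1
  exact mul_left_cancel₀ (by norm_num) h1

theorem N3_of_cub {f : RV} (h : ∀ x, cub (f x) = cub x) (x y z : VC) :
    N3 (f x) (f y) (f z) = N3 x y z := cross_map h x y z

/-- **The polar decomposition.** -/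
theorem pol {J f : RV} (hJJ : J * J = 1) (hJ : IsU J) (hf : f ∈ GJ J) :
    ∃ k : RV, IsU k ∧ k * J = J * k ∧ (Con J k → Con J f) := by
  have hJJ' : ∀ x, J (J x) = x := fun x => by rw [← mul_app, hJJ, one_app]
  have hJs : ∀ x y : VC, inner ℂ (J x) y = inner ℂ x (J y) := fun x y => by
    rw [← hJ.2 (J x) y, hJJ']
  -- `f` is invertible
  have hinj : Function.Injective (f : VC →ₗ[ℂ] VC) := by
    rw [injective_iff_map_eq_zero]
    intro x hx
    have h1 : ∀ y, inner ℂ (J x) y = 0 := fun y => by
      rw [← hf.2 x y, show f x = 0 from hx, map_zero, inner_zero_left]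
    have h2 : J x = 0 := by
      have := h1 (J x)
      rwa [inner_self_eq_zero] at this
    rw [← hJJ' x, h2, map_zero]
  have hbij : Function.Bijective (f : VC →ₗ[ℂ] VC) :=
    ⟨hinj, LinearMap.injective_iff_surjective.1 hinj⟩
  set e : VC ≃ₗ[ℂ] VC := LinearEquiv.ofBijective (f : VC →ₗ[ℂ] VC) hbij with he
  set f' : RV := LinearMap.toContinuousLinearMap (e.symm : VC →ₗ[ℂ] VC) with hf'
  have e1 : f * f' = 1 := by
    ext1 x
    rw [mul_app, one_app]
    exact e.apply_symm_apply x
  have e2 : f' * f = 1 := by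
    ext1 x
    rw [mul_app, one_app]
    exact e.symm_apply_apply x
  have e1' : ∀ x, f (f' x) = x := fun x => by rw [← mul_app, e1, one_app]
  have hfu : IsUnit f := ⟨⟨f, f', e1, e2⟩, rfl⟩
  -- the adjoint
  have hst : star f = J * f' * J := by
    ext1 x
    refine ext_inner_right ℂ fun y => ?_
    have h1 : inner ℂ (star f x) y = inner ℂ x (f y) := by
      rw [ContinuousLinearMap.star_eq_adjoint, ContinuousLinearMap.adjoint_inner_left]
    rw [h1, mul_app, mul_app]
    have h2 := hf.2 (f' (J x)) y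
    rw [e1', hJJ'] at h2
    exact h2
  have hfJ : star f * J * f = J := by
    rw [hst]
    calc J * f' * J * J * f = J * (f' * (J * J) * f) := by simp only [mul_assoc]
      _ = J := by rw [hJJ, mul_one, e2, mul_one]
  have hf'c : ∀ x, cub (f' x) = cub x := fun x => by rw [← hf.1, e1']
  have hstc : ∀ x, cub (star f x) = cub x := fun x => by
    rw [hst, mul_app, mul_app, hJ.1, hf'c, hJ.1]
  obtain ⟨k, S, hk1, hk2, hS, hfk, -, hkN, hkJ, -, hSN, -, hSJ⟩ :=
    H184.Pol.polar_group N3_tri hJJ f hfu (N3_of_cub hf.1) (N3_of_cub hstc) hfJ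
  refine ⟨k, ⟨cub_of_N3 hkN, fun x y => ?_⟩, hkJ, fun hc => ?_⟩
  · have h1 : inner ℂ (k x) (k y) = inner ℂ (star k (k x)) y := by
      rw [ContinuousLinearMap.star_eq_adjoint, ContinuousLinearMap.adjoint_inner_left]
    rw [h1, ← mul_app, hk1, one_app]
  · rw [hfk]
    refine hc.mul (Con.exp ⟨fun x => ?_, fun x y => ?_⟩)
    · have h3 := hSN x x x
      change tf (cross (S x) x) x + tf (cross x (S x)) x + tf (cross x x) (S x) = 0 at h3
      rw [tf_cross_comm x (S x) x, tf_cross (S x) x x, Alb.cross_self, tf_smul_left,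
        tf_comm (adj x), tf_smul_right] at h3
      have h4 : (6 : ℂ) * tf (S x) (adj x) = 0 := by linear_combination h3
      exact (mul_eq_zero.1 h4).resolve_left (by norm_num)
    · have h5 : inner ℂ (J x) (S y) = inner ℂ (S (J x)) y := by
        conv_lhs => rw [← hS]
        rw [ContinuousLinearMap.star_eq_adjoint, ContinuousLinearMap.adjoint_inner_right]
      rw [h5, ← inner_add_left]
      have h6 : J (S x) + S (J x) = 0 := by
        have h7 := congrArg (fun T : RV => T x) hSJ
        change S (J x) + J (S x) = 0 at h7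
        rw [add_comm]
        exact h7
      rw [h6, inner_zero_left]

end Vale.Agent.P011.H518.Rl
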