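import Vale.Agent.P011.H518.Rl.Rot
import Vale.Agent.P011.H261.Rl.Defs

/-!
The compact group moves every element of rank one to a multiple of the first idempotent.
-/

open NormedSpace Filter Topology

namespace Vale.Agent.P011.H518.Rl

open Vale.Agent.P011.MPQ Vale.Agent.P011.D4 Vale.Agent.P011.D4.Oct Vale.Agent.P011.E6
  Vale.Agent.P011.E6.Alb Vale.Agent.P011.H261.Rl
open scoped ComplexConjugate

/-- The standard space. -/
abbrev V : Type := Alb (-1 : ℂˣ) (-1) (-1)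

/-- The standard octonions. -/
abbrev O : Type := Oct (-1 : ℂˣ) (-1) (-1)

/-! The conjugation. -/

theorem cjo_mul (x y : O) : cjo (x * y) = cjo x * cjo y := by
  apply ext8 <;> simp [cjo, cjq]

theorem cjo_star (x : O) : cjo (star x) = star (cjo x) := by
  apply ext8 <;> simp [cjo, cjq]

theorem cjo_add (x y : O) : cjo (x + y) = cjo x + cjo y := by
  apply ext8 <;> simp [cjo, cjq]

theorem cjo_sub (x y : O) : cjo (x - y) = cjo x - cjo y := by
  apply ext8 <;> simp [cjo, cjq]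

theorem cjo_smul (t : ℂ) (x : O) : cjo (t • x) = conj t • cjo x := by
  apply ext8 <;> simp [cjo, cjq]

theorem bil_cjo (x y : O) : bil (cjo x) (cjo y) = conj (bil x y) := by
  have h2 : conj (2 : ℂ) = 2 := map_ofNat _ 2
  simp [cjo, cjq, bil_eq, h2]

theorem inner_tf (x y : V) : inner ℂ x y = tf (cj x) y := by
  rw [inner_eq]
  simp [hs, oh, qh, tf, cj, cjo, cjq, bil_eq]
  ring

theorem cj_rot {u : O} (hu : cjo u = u) (p r : ℝ) (x : V) :
    cj (rot u (p : ℂ) (r : ℂ) x) = rot u (p : ℂ) (r : ℂ) (cj x) := by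
  have hb : ∀ z : O, conj (bil u z) = bil u (cjo z) := fun z => by rw [← bil_cjo, hu]
  simp only [rot_apply, rotF, cj, cjo_add, cjo_sub, cjo_smul, cjo_mul, cjo_star, hu, map_add,
    map_sub, map_mul, map_pow, Complex.conj_ofReal, hb]

/-! The group. -/

/-- The maps that preserve the cubic norm and the inner product. -/
def Is (f : V → V) : Prop :=
  (∀ x, cub (f x) = cub x) ∧ ∀ x y, inner ℂ (f x) (f y) = inner ℂ x y

theorem Is.comp {f g : V → V} (hf : Is f) (hg : Is g) : Is (fun x => f (g x)) :=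
  ⟨fun x => (hf.1 _).trans (hg.1 x), fun x y => (hf.2 _ _).trans (hg.2 x y)⟩

theorem is_rot {u : O} (hu : cjo u = u) (hn : norm u = 1) {p r : ℝ} (h : p ^ 2 + r ^ 2 = 1) :
    Is (rot u (p : ℂ) (r : ℂ)) := by
  have h' : (p : ℂ) ^ 2 + (r : ℂ) ^ 2 = 1 := by exact_mod_cast congrArg (fun t : ℝ => (t : ℂ)) h
  refine ⟨fun x => cub_rot hn h' x, fun x y => ?_⟩
  rw [inner_tf, cj_rot hu, tf_rot hn h', inner_tf]

theorem is_cyc : Is (cyc : V →ₗ[ℂ] V) := by
  refine ⟨fun x => cub_cyc x, fun x y => ?_⟩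
  rw [inner_eq, inner_eq]
  simp only [hs, cyc, LinearMap.coe_mk, AddHom.coe_mk]
  ring

theorem is_dgE {z1 z2 z3 : ℂ} (h : z1 * z2 * z3 = 1) (h1 : conj z1 * z1 = 1)
    (h2 : conj z2 * z2 = 1) (h3 : conj z3 * z3 = 1) : Is (dgE z1 z2 z3 : V →ₗ[ℂ] V) := by
  refine ⟨fun x => cub_dgE h x, fun x y => ?_⟩
  have e : ∀ (t s : ℂ) (x y : O), oh (t • x) (s • y) = (conj t * s) * oh x y := by
    intro t s x y
    simp [oh, qh]
    ring
  rw [inner_eq, inner_eq]
  simp only [hs, dgE, LinearMap.coe_mk, AddHom.coe_mk, e, map_mul, map_pow]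
  have q1 : (conj z1 * z1) ^ 2 = 1 := by rw [h1, one_pow]
  have q2 : (conj z2 * z2) ^ 2 = 1 := by rw [h2, one_pow]
  have q3 : (conj z3 * z3) ^ 2 = 1 := by rw [h3, one_pow]
  have r1 : (conj z2 * z2) * (conj z3 * z3) = 1 := by rw [h2, h3, one_mul]
  have r2 : (conj z3 * z3) * (conj z1 * z1) = 1 := by rw [h1, h3, one_mul]
  have r3 : (conj z1 * z1) * (conj z2 * z2) = 1 := by rw [h1, h2, one_mul]
  linear_combination (conj x.d1 * y.d1) * q1 + (conj x.d2 * y.d2) * q2 + (conj x.d3 * y.d3) * q3 +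
    2 * oh x.x1 y.x1 * r1 + 2 * oh x.x2 y.x2 * r2 + 2 * oh x.x3 y.x3 * r3

/-! Compactness. -/

theorem cont_of (f : V → ℂ) (h1 : ∀ x y, f (x + y) = f x + f y)
    (h2 : ∀ (t : ℂ) x, f (t • x) = t * f x) : Continuous f :=
  LinearMap.continuous_of_finiteDimensional
    (⟨⟨f, h1⟩, h2⟩ : V →ₗ[ℂ] ℂ)

theorem cont_d1 : Continuous fun x : V => x.d1 := cont_of _ (fun _ _ => rfl) fun _ _ => rfl
theorem cont_d2 : Continuous fun x : V => x.d2 := cont_of _ (fun _ _ => rfl) fun _ _ => rfl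
theorem cont_d3 : Continuous fun x : V => x.d3 := cont_of _ (fun _ _ => rfl) fun _ _ => rfl

theorem cont_cub : Continuous fun x : V => cub x := by
  have d1 := cont_d1
  have d2 := cont_d2
  have d3 := cont_d3
  have a1 : Continuous fun x : V => x.x1.fst.re := cont_of _ (fun _ _ => rfl) fun _ _ => rfl
  have a2 : Continuous fun x : V => x.x1.fst.imI := cont_of _ (fun _ _ => rfl) fun _ _ => rfl
  have a3 : Continuous fun x : V => x.x1.fst.imJ := cont_of _ (fun _ _ => rfl) fun _ _ => rfl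
  have a4 : Continuous fun x : V => x.x1.fst.imK := cont_of _ (fun _ _ => rfl) fun _ _ => rfl
  have a5 : Continuous fun x : V => x.x1.snd.re := cont_of _ (fun _ _ => rfl) fun _ _ => rfl
  have a6 : Continuous fun x : V => x.x1.snd.imI := cont_of _ (fun _ _ => rfl) fun _ _ => rfl
  have a7 : Continuous fun x : V => x.x1.snd.imJ := cont_of _ (fun _ _ => rfl) fun _ _ => rfl
  have a8 : Continuous fun x : V => x.x1.snd.imK := cont_of _ (fun _ _ => rfl) fun _ _ => rfl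
  have b1 : Continuous fun x : V => x.x2.fst.re := cont_of _ (fun _ _ => rfl) fun _ _ => rfl
  have b2 : Continuous fun x : V => x.x2.fst.imI := cont_of _ (fun _ _ => rfl) fun _ _ => rfl
  have b3 : Continuous fun x : V => x.x2.fst.imJ := cont_of _ (fun _ _ => rfl) fun _ _ => rfl
  have b4 : Continuous fun x : V => x.x2.fst.imK := cont_of _ (fun _ _ => rfl) fun _ _ => rfl
  have b5 : Continuous fun x : V => x.x2.snd.re := cont_of _ (fun _ _ => rfl) fun _ _ => rfl
  have b6 : Continuous fun x : V => x.x2.snd.imI := cont_of _ (fun _ _ => rfl) fun _ _ => rfl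
  have b7 : Continuous fun x : V => x.x2.snd.imJ := cont_of _ (fun _ _ => rfl) fun _ _ => rfl
  have b8 : Continuous fun x : V => x.x2.snd.imK := cont_of _ (fun _ _ => rfl) fun _ _ => rfl
  have c1 : Continuous fun x : V => x.x3.fst.re := cont_of _ (fun _ _ => rfl) fun _ _ => rfl
  have c2 : Continuous fun x : V => x.x3.fst.imI := cont_of _ (fun _ _ => rfl) fun _ _ => rfl
  have c3 : Continuous fun x : V => x.x3.fst.imJ := cont_of _ (fun _ _ => rfl) fun _ _ => rfl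
  have c4 : Continuous fun x : V => x.x3.fst.imK := cont_of _ (fun _ _ => rfl) fun _ _ => rfl
  have c5 : Continuous fun x : V => x.x3.snd.re := cont_of _ (fun _ _ => rfl) fun _ _ => rfl
  have c6 : Continuous fun x : V => x.x3.snd.imI := cont_of _ (fun _ _ => rfl) fun _ _ => rfl
  have c7 : Continuous fun x : V => x.x3.snd.imJ := cont_of _ (fun _ _ => rfl) fun _ _ => rfl
  have c8 : Continuous fun x : V => x.x3.snd.imK := cont_of _ (fun _ _ => rfl) fun _ _ => rfl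
  simp only [cub, Oct.norm, nrd, bil_eq]
  simp
  fun_prop

/-- The group as a set of operators. -/
def KS : Set (R (-1) (-1) (-1)) := {f | Is f}

theorem ev_cont (w : V) : Continuous fun n : R (-1) (-1) (-1) => n w :=
  (ContinuousLinearMap.apply ℂ V w).continuous

theorem cont_in (x y : V) : Continuous fun f : R (-1) (-1) (-1) => (inner ℂ (f x) (f y) : ℂ) :=
  (ev_cont x).inner (ev_cont y)

theorem closed_in (x y : V) :
    IsClosed {f : R (-1) (-1) (-1) | inner ℂ (f x) (f y) = inner ℂ x y} :=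
  (isClosed_singleton (x := inner ℂ x y)).preimage (cont_in x y)

theorem closed_gen {X Y Z : Type} [TopologicalSpace X] [TopologicalSpace Y] [TopologicalSpace Z]
    [T1Space Z] {g : Y → Z} (hg : Continuous g) {f : X → Y} (hf : Continuous f) (s : Z) :
    IsClosed {x | g (f x) = s} :=
  (isClosed_singleton (x := s)).preimage (hg.comp hf)

theorem closed_cub (x : V) : IsClosed {f : R (-1) (-1) (-1) | cub (f x) = cub x} :=
  closed_gen (X := R (-1) (-1) (-1)) (Y := V) (g := cub) cont_cub (f := fun n => n x) (ev_cont x)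
    (cub x)

theorem KS_closed : IsClosed KS := by
  have e : KS = ⋂ x : V, ⋂ y : V, ({f : R (-1) (-1) (-1) | cub (f x) = cub x} ∩
      {f : R (-1) (-1) (-1) | inner ℂ (f x) (f y) = inner ℂ x y}) := by
    ext f
    simp only [KS, Is, Set.mem_ofPred_eq, Set.mem_iInter, Set.mem_inter_iff]
    exact ⟨fun h x y => ⟨h.1 x, h.2 x y⟩, fun h => ⟨fun x => (h x 0).1, fun x y => (h x y).2⟩⟩
  rw [e]
  exact isClosed_iInter fun x => isClosed_iInter fun y => (closed_cub x).inter (closed_in x y)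

theorem Is.norm_map {f : V → V} (hf : Is f) (x : V) : ‖f x‖ = ‖x‖ := by
  have h := hf.2 x x
  rw [inner_self_eq_norm_sq_to_K, inner_self_eq_norm_sq_to_K] at h
  have h2 : ‖f x‖ ^ 2 = ‖x‖ ^ 2 := by exact_mod_cast h
  exact (sq_eq_sq₀ (norm_nonneg _) (norm_nonneg _)).1 h2

theorem isCompact_of {K : Set (R (-1) (-1) (-1))} (hc : IsClosed K) (h : ∀ f ∈ K, Is f) :
    IsCompact K := by
  have : ProperSpace (R (-1) (-1) (-1)) := FiniteDimensional.proper ℂ _
  refine (isCompact_closedBall (0 : R (-1) (-1) (-1)) 1).of_isClosed_subset hc fun f hf => ?_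
  rw [mem_closedBall_zero_iff]
  refine ContinuousLinearMap.opNorm_le_bound _ zero_le_one fun x => ?_
  rw [(h f hf).norm_map, one_mul]

/-- The operator of a linear map. -/
noncomputable abbrev toC (f : V →ₗ[ℂ] V) : R (-1) (-1) (-1) := LinearMap.toContinuousLinearMap f

/-! The maximum. -/

theorem eq_zero_of_max {α β : ℝ} (h : ∀ p r : ℝ, p ^ 2 + r ^ 2 = 1 → r ^ 2 * α ≤ p * r * β) :
    β = 0 := by
  by_contra hb
  have hb2 : 0 < β ^ 2 := by positivity
  set ε : ℝ := 1 / (4 * (|α| + β ^ 2 + 1)) with hε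
  have hA : 0 ≤ |α| := abs_nonneg α
  have hD : 0 < 4 * (|α| + β ^ 2 + 1) := by positivity
  have hε0 : 0 < ε := by positivity
  have hε1 : ε * (4 * (|α| + β ^ 2 + 1)) = 1 := by rw [hε]; field_simp
  set s : ℝ := -(β * ε) with hs
  have hs1 : 0 < 1 + s ^ 2 := by positivity
  have h1 := h ((1 - s ^ 2) / (1 + s ^ 2)) (2 * s / (1 + s ^ 2)) (by
    field_simp
    ring)
  have h2 : 4 * s ^ 2 * α ≤ (1 - s ^ 2) * (2 * s) * β := by
    have h3 := mul_le_mul_of_nonneg_right h1 (by positivity : (0 : ℝ) ≤ (1 + s ^ 2) ^ 2)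
    have e1 : (2 * s / (1 + s ^ 2)) ^ 2 * α * (1 + s ^ 2) ^ 2 = 4 * s ^ 2 * α := by
      field_simp
      ring
    have e2 : (1 - s ^ 2) / (1 + s ^ 2) * (2 * s / (1 + s ^ 2)) * β * (1 + s ^ 2) ^ 2 =
        (1 - s ^ 2) * (2 * s) * β := by
      field_simp
    rwa [e1, e2] at h3
  have hαn : -|α| ≤ α := neg_abs_le α
  have h4 : 2 * ε * α ≤ -(1 - s ^ 2) := by
    have e3 : 4 * s ^ 2 * α = (2 * β ^ 2 * ε) * (2 * ε * α) := by rw [hs]; ring
    have e4 : (1 - s ^ 2) * (2 * s) * β = (2 * β ^ 2 * ε) * (-(1 - s ^ 2)) := by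
      rw [hs]; ring
    rw [e3, e4] at h2
    exact le_of_mul_le_mul_left h2 (by positivity)
  have h5 : s ^ 2 ≤ 1 / 4 := by
    have e5 : ε * β ^ 2 ≤ 1 / 4 := by nlinarith
    have e6 : ε ≤ 1 / 4 := by nlinarith
    have e7 : s ^ 2 = ε * (ε * β ^ 2) := by rw [hs]; ring
    rw [e7]
    nlinarith [mul_nonneg hε0.le hb2.le]
  have h6 : ε * |α| ≤ 1 / 4 := by nlinarith
  nlinarith

/-- An octonion orthogonal to the real octonions of norm one is zero. -/
theorem oct_zero {x : O} (h : ∀ u : O, cjo u = u → norm u = 1 → bil u x = 0) : x = 0 := by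
  have e1 := h ⟨⟨1, 0, 0, 0⟩, 0⟩ (by ext <;> simp [cjo, cjq]) (by simp [Oct.norm, nrd])
  have e2 := h ⟨⟨0, 1, 0, 0⟩, 0⟩ (by ext <;> simp [cjo, cjq]) (by simp [Oct.norm, nrd])
  have e3 := h ⟨⟨0, 0, 1, 0⟩, 0⟩ (by ext <;> simp [cjo, cjq]) (by simp [Oct.norm, nrd])
  have e4 := h ⟨⟨0, 0, 0, 1⟩, 0⟩ (by ext <;> simp [cjo, cjq]) (by simp [Oct.norm, nrd])
  have e5 := h ⟨0, ⟨1, 0, 0, 0⟩⟩ (by ext <;> simp [cjo, cjq]) (by simp [Oct.norm, nrd])
  have e6 := h ⟨0, ⟨0, 1, 0, 0⟩⟩ (by ext <;> simp [cjo, cjq]) (by simp [Oct.norm, nrd])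
  have e7 := h ⟨0, ⟨0, 0, 1, 0⟩⟩ (by ext <;> simp [cjo, cjq]) (by simp [Oct.norm, nrd])
  have e8 := h ⟨0, ⟨0, 0, 0, 1⟩⟩ (by ext <;> simp [cjo, cjq]) (by simp [Oct.norm, nrd])
  simp [bil_eq] at e1 e2 e3 e4 e5 e6 e7 e8
  exact ext8 e1 e2 e3 e4 e5 e6 e7 e8

/-- Phases. -/
theorem exists_phase (ζ : ℂ) : ∃ w : ℂ, conj w * w = 1 ∧ w ^ 2 * ζ = (‖ζ‖ : ℂ) := by
  by_cases hz : ζ = 0
  · exact ⟨1, by simp, by simp [hz]⟩
  obtain ⟨w, hw⟩ := IsAlgClosed.exists_pow_nat_eq (conj ζ / ‖ζ‖) (n := 2) two_pos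
  have hn : (‖ζ‖ : ℂ) ≠ 0 := by simpa using hz
  have h1 : ‖w‖ ^ 2 = 1 := by
    rw [← norm_pow, hw, norm_div, Complex.norm_conj, Complex.norm_real, norm_norm, div_self]
    simpa using hz
  refine ⟨w, ?_, ?_⟩
  · rw [← Complex.normSq_eq_conj_mul_self, Complex.normSq_eq_norm_sq, h1]
    simp
  · rw [hw, div_mul_eq_mul_div, ← Complex.normSq_eq_conj_mul_self, Complex.normSq_eq_norm_sq]
    field_simp
    push_cast
    ring

/-- The key step at a maximum. -/
theorem bil_zero_of_max {d e : ℂ} {x : O}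
    (h : ∀ u : O, cjo u = u → norm u = 1 → ∀ z : ℂ, conj z * z = 1 → ∀ p r : ℝ,
      p ^ 2 + r ^ 2 = 1 →
      ((p : ℂ) ^ 2 * d + (r : ℂ) ^ 2 * (z ^ 2 * e) - p * r * bil u (z • x)).re ≤ d.re) :
    x = 0 := by
  refine oct_zero fun u hu hn => ?_
  have key : ∀ z : ℂ, conj z * z = 1 → (z * bil u x).re = 0 := by
    intro z hz
    refine eq_zero_of_max (α := (z ^ 2 * e).re - d.re) fun p r hpr => ?_
    have h1 := h u hu hn z hz p r hpr
    rw [bil_smul_right] at h1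
    have e1 : ((p : ℂ) ^ 2 * d + (r : ℂ) ^ 2 * (z ^ 2 * e) - p * r * (z * bil u x)).re =
        p ^ 2 * d.re + r ^ 2 * (z ^ 2 * e).re - p * r * (z * bil u x).re := by
      rw [Complex.sub_re, Complex.add_re, ← Complex.ofReal_pow, ← Complex.ofReal_pow,
        ← Complex.ofReal_mul, Complex.re_ofReal_mul, Complex.re_ofReal_mul, Complex.re_ofReal_mul]
    rw [e1] at h1
    have e2 : p ^ 2 * d.re = d.re - r ^ 2 * d.re := by
      rw [show p ^ 2 = 1 - r ^ 2 by linarith]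
      ring
    rw [e2] at h1
    linarith
  have k1 := key 1 (by simp)
  have k2 := key Complex.I (by simp)
  rw [one_mul] at k1
  have k3 : (bil u x).im = 0 := by
    simpa using k2
  exact Complex.ext k1 k3

end Vale.Agent.P011.H518.Rl
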