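import Vale.Agent.P011.H518.Rl.Mv

/-!
The compact group moves every element of rank one to a multiple of the first idempotent, and its
stabiliser moves the elements of rank one of the Peirce space to a multiple of the second one.
-/

open NormedSpace Filter Topology

namespace Vale.Agent.P011.H518.Rl

open Vale.Agent.P011.MPQ Vale.Agent.P011.D4 Vale.Agent.P011.D4.Oct Vale.Agent.P011.E6
  Vale.Agent.P011.E6.Alb Vale.Agent.P011.H261.Rl
open scoped ComplexConjugate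

/-- The adjoint through the cubic norm. -/
theorem tf_adj_formula (x y : V) :
    tf (adj x) y = (cub (x + y) - cub (x + (-1 : ℂ) • y)) / 2 - cub y := by
  rw [cub_add, cub_add, adj_smul, tf_smul_right, tf_smul_right, cub_smul]
  ring

theorem Is.inj {f : V →ₗ[ℂ] V} (hf : Is f) : Function.Injective f := by
  rw [injective_iff_map_eq_zero]
  intro x hx
  have h := hf.norm_map x
  rw [hx, _root_.norm_zero] at h
  exact norm_eq_zero.1 h.symm

theorem Is.surj {f : V →ₗ[ℂ] V} (hf : Is f) : Function.Surjective f :=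
  LinearMap.injective_iff_surjective.1 hf.inj

theorem Is.adj_zero {f : V →ₗ[ℂ] V} (hf : Is f) {x : V} (hx : adj x = 0) : adj (f x) = 0 := by
  refine eq_zero_of_tf fun y => ?_
  obtain ⟨z, rfl⟩ := hf.surj y
  rw [tf_adj_formula, ← map_smul, ← map_add, ← map_add, hf.1, hf.1, hf.1, ← tf_adj_formula, hx,
    ← zero_smul ℂ (0 : V), tf_smul_left, zero_mul]

theorem Is.comp' {f g : V →ₗ[ℂ] V} (hf : Is f) (hg : Is g) : Is (f ∘ₗ g) := hf.comp hg

theorem conj_swap {z : ℂ} (h : conj z * z = 1) : z * conj z = 1 := by rw [mul_comm, h]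

/-- The coefficients of the first step. -/
theorem d1_rot (u : O) (p r : ℝ) (z : ℂ) (y : V) :
    (rot u (p : ℂ) (r : ℂ) (dgE 1 z (conj z) y)).d1 =
      (p : ℂ) ^ 2 * y.d1 + (r : ℂ) ^ 2 * (z ^ 2 * y.d2) - p * r * bil u (z • y.x3) := by
  simp [rotF, dgE]

theorem d1_rot' (u : O) (p r : ℝ) (z : ℂ) (y : V) :
    (cyc (cyc (rot u (p : ℂ) ((-r : ℝ) : ℂ) (cyc (dgE 1 (conj z) z y))))).d1 =
      (p : ℂ) ^ 2 * y.d1 + (r : ℂ) ^ 2 * (z ^ 2 * y.d3) - p * r * bil u (z • y.x2) := by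
  simp [rotF, dgE, cyc]
  ring

/-- **The compact group is transitive on the lines of rank one.** -/
theorem to_e1 {x : V} (hx : x ≠ 0) (ha : adj x = 0) :
    ∃ g : V ≃ₗ[ℂ] V, ((∀ x, cub (g x) = cub x) ∧ ∀ x y, inner ℂ (g x) (g y) = inner ℂ x y) ∧
      ∃ s : ℂ, s ≠ 0 ∧ g x = s • e1 := by
  have hc : Continuous fun n : R (-1) (-1) (-1) => (n x).d1.re :=
    Complex.continuous_re.comp (cont_d1.comp (ev_cont x))
  obtain ⟨n, hn, hmax⟩ := (isCompact_of KS_closed fun _ h => h).exists_isMaxOn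
    ⟨1, (⟨fun _ => rfl, fun _ _ => rfl⟩ : Is fun x => x)⟩ hc.continuousOn
  have hnI : Is (n : V →ₗ[ℂ] V) := hn
  obtain ⟨y, hy⟩ : ∃ y : V, n x = y := ⟨_, rfl⟩
  have hM : ∀ m : V →ₗ[ℂ] V, Is m → (m y).d1.re ≤ y.d1.re := by
    intro m hm
    have := hmax (a := toC (m ∘ₗ (n : V →ₗ[ℂ] V))) (hm.comp' hnI)
    rw [← hy]
    exact this
  have hay : adj y = 0 := hy ▸ hnI.adj_zero ha
  have hy0 : y ≠ 0 := fun h => hx (hnI.inj (by rw [map_zero]; exact hy.trans h))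
  have z3 : y.x3 = 0 := bil_zero_of_max (d := y.d1) (e := y.d2) fun u hu hun z hz p r hpr => by
    have := hM (rot u p r ∘ₗ dgE 1 z (conj z)) ((is_rot hu hun hpr).comp'
      (is_dgE (by rw [one_mul, conj_swap hz]) (by simp) hz (by rw [Complex.conj_conj, conj_swap hz])))
    rw [LinearMap.comp_apply, d1_rot] at this
    exact this
  have z2 : y.x2 = 0 := bil_zero_of_max (d := y.d1) (e := y.d3) fun u hu hun z hz p r hpr => by
    have := hM (cyc ∘ₗ cyc ∘ₗ rot u p ((-r : ℝ) : ℂ) ∘ₗ cyc ∘ₗ dgE 1 (conj z) z)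
      (is_cyc.comp' (is_cyc.comp' ((is_rot hu hun (by rw [neg_sq, hpr])).comp'
        (is_cyc.comp' (is_dgE (by rw [one_mul, hz]) (by simp)
          (by rw [Complex.conj_conj, conj_swap hz]) hz)))))
    simp only [LinearMap.comp_apply] at this
    rw [d1_rot'] at this
    exact this
  have hd : y.d1 ≠ 0 := by
    intro hd
    have hall : ∀ m : V →ₗ[ℂ] V, Is m → (m y).d1 = 0 := by
      intro m hm
      obtain ⟨w, hw, hw2⟩ := exists_phase (m y).d1
      have h1 := hM (dgE w 1 (conj w) ∘ₗ m) ((is_dgE (by rw [mul_one, conj_swap hw]) hw (by simp)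
        (by rw [Complex.conj_conj, conj_swap hw])).comp' hm)
      have h2 : ((dgE w 1 (conj w) ∘ₗ m) y).d1 = w ^ 2 * (m y).d1 := rfl
      rw [h2, hw2, hd, Complex.ofReal_re, Complex.zero_re] at h1
      exact norm_le_zero_iff.1 h1
    have k3 : y.d3 = 0 := hall cyc is_cyc
    have k2 : y.d2 = 0 := hall (cyc ∘ₗ cyc) (is_cyc.comp' is_cyc)
    have k1 : y.x1 = 0 := oct_zero fun u hu hun => by
      have h1 := hall (rot u ((3 / 5 : ℝ) : ℂ) ((4 / 5 : ℝ) : ℂ) ∘ₗ cyc ∘ₗ cyc)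
        ((is_rot hu hun (by norm_num)).comp' (is_cyc.comp' is_cyc))
      have h2 : ((rot u ((3 / 5 : ℝ) : ℂ) ((4 / 5 : ℝ) : ℂ) ∘ₗ cyc ∘ₗ cyc) y).d1 =
        ((3 / 5 : ℝ) : ℂ) ^ 2 * y.d2 + ((4 / 5 : ℝ) : ℂ) ^ 2 * y.d3 -
          ((3 / 5 : ℝ) : ℂ) * ((4 / 5 : ℝ) : ℂ) * bil u y.x1 := rfl
      rw [h2, k2, k3, mul_zero, mul_zero, zero_add, zero_sub, neg_eq_zero, mul_eq_zero] at h1
      refine h1.resolve_left ?_
      push_cast
      norm_num
    exact hy0 (Alb.ext hd k2 k3 k1 z2 z3)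
  have a2 := congrArg Alb.d2 hay
  have a3 := congrArg Alb.d3 hay
  have a1 := congrArg Alb.x1 hay
  simp only [adj, z2, z3, Oct.norm_zero, sub_zero, d2_zero, d3_zero, x1_zero, mul_eq_zero, mul_zero,
    star_zero, zero_sub, neg_eq_zero, smul_eq_zero, hd, or_false, false_or] at a2 a3 a1
  refine ⟨LinearEquiv.ofBijective (n : V →ₗ[ℂ] V) ⟨hnI.inj, hnI.surj⟩, hnI, y.d1, hd, ?_⟩
  change n x = y.d1 • e1
  rw [hy]
  ext1 <;> simp [e1, a2, a3, a1, z2, z3]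

/-! The stabiliser. -/

/-- The Peirce space of the first idempotent. -/
def J0 : Submodule ℂ V where
  carrier := {y | y.d1 = 0 ∧ y.x2 = 0 ∧ y.x3 = 0}
  add_mem' := by
    rintro x y ⟨h1, h2, h3⟩ ⟨k1, k2, k3⟩
    exact ⟨by rw [d1_add, h1, k1, add_zero], by rw [x2_add, h2, k2, add_zero],
      by rw [x3_add, h3, k3, add_zero]⟩
  zero_mem' := ⟨rfl, rfl, rfl⟩
  smul_mem' := by
    rintro t x ⟨h1, h2, h3⟩
    exact ⟨by rw [d1_smul, h1, mul_zero], by rw [x2_smul, h2, smul_zero],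
      by rw [x3_smul, h3, smul_zero]⟩

/-- The maps in the group that preserve the line of the first idempotent and its Peirce space. -/
structure Is1 (f : V → V) : Prop where
  /-- in the group -/
  is : Is f
  /-- the Peirce space -/
  pei : ∀ y ∈ J0, f y ∈ J0
  /-- the line -/
  line : f e1 ∈ Submodule.span ℂ {(e1 : V)}

theorem Is1.comp' {f g : V →ₗ[ℂ] V} (hf : Is1 f) (hg : Is1 g) : Is1 (f ∘ₗ g) := by
  refine ⟨hf.is.comp' hg.is, fun y hy => hf.pei _ (hg.pei y hy), ?_⟩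
  obtain ⟨t, ht⟩ := Submodule.mem_span_singleton.1 hg.line
  rw [LinearMap.comp_apply, ← ht, map_smul]
  exact Submodule.smul_mem _ _ hf.line

theorem is1_dgE {z1 z2 z3 : ℂ} (h : z1 * z2 * z3 = 1) (h1 : conj z1 * z1 = 1)
    (h2 : conj z2 * z2 = 1) (h3 : conj z3 * z3 = 1) : Is1 (dgE z1 z2 z3 : V →ₗ[ℂ] V) := by
  refine ⟨is_dgE h h1 h2 h3, ?_, ?_⟩
  · rintro y ⟨k1, k2, k3⟩
    exact ⟨by simp [dgE, k1], by simp [dgE, k2], by simp [dgE, k3]⟩
  · refine Submodule.mem_span_singleton.2 ⟨z1 ^ 2, ?_⟩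
    ext1 <;> simp [dgE, e1]

/-- The rotation of the last two coordinates. -/
noncomputable def rot23 (u : O) (p r : ℝ) : V →ₗ[ℂ] V := cyc ∘ₗ rot u (p : ℂ) (r : ℂ) ∘ₗ cyc ∘ₗ cyc

theorem rot23_apply (u : O) (p r : ℝ) (y : V) : rot23 u p r y =
    ⟨y.d1, (p : ℂ) ^ 2 * y.d2 + (r : ℂ) ^ 2 * y.d3 - p * r * bil u y.x1,
      (r : ℂ) ^ 2 * y.d2 + (p : ℂ) ^ 2 * y.d3 + p * r * bil u y.x1,
      y.x1 + (p * r * (y.d2 - y.d3) - (r : ℂ) ^ 2 * bil u y.x1) • u,
      (p : ℂ) • y.x2 + (r : ℂ) • (star u * star y.x3),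
      (p : ℂ) • y.x3 - (r : ℂ) • (star y.x2 * star u)⟩ := rfl

theorem is1_rot {u : O} (hu : cjo u = u) (hn : norm u = 1) {p r : ℝ} (h : p ^ 2 + r ^ 2 = 1) :
    Is1 (rot23 u p r) := by
  refine ⟨is_cyc.comp' ((is_rot hu hn h).comp' (is_cyc.comp' is_cyc)), ?_, ?_⟩
  · rintro y ⟨k1, k2, k3⟩
    rw [rot23_apply]
    exact ⟨k1, by simp [k2, k3], by simp [k2, k3]⟩
  · refine Submodule.mem_span_singleton.2 ⟨1, ?_⟩
    rw [rot23_apply]
    ext1 <;> simp [e1]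

/-- The stabiliser as a set of operators. -/
def K1 : Set (R (-1) (-1) (-1)) := {f | Is1 f}

theorem closed_mem {X Y : Type} [TopologicalSpace X] [TopologicalSpace Y] {S : Set Y}
    (hS : IsClosed S) {f : X → Y} (hf : Continuous f) : IsClosed {x | f x ∈ S} :=
  hS.preimage hf

theorem closed_sub (W : Submodule ℂ V) (x : V) :
    IsClosed {f : R (-1) (-1) (-1) | f x ∈ (W : Set V)} :=
  closed_mem (X := R (-1) (-1) (-1)) (Y := V) (S := (W : Set V)) W.closed_of_finiteDimensional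
    (f := fun n => n x) (ev_cont x)

theorem K1_closed : IsClosed K1 := by
  have e : K1 = KS ∩ ((⋂ y : J0, {f : R (-1) (-1) (-1) | f (y : V) ∈ (J0 : Set V)}) ∩
      {f : R (-1) (-1) (-1) | f e1 ∈ ((Submodule.span ℂ {(e1 : V)} : Submodule ℂ V) : Set V)}) := by
    ext f
    simp only [K1, KS, Set.mem_ofPred_eq, Set.mem_iInter, Set.mem_inter_iff]
    exact ⟨fun h => ⟨h.is, fun y => h.pei y y.2, h.line⟩,
      fun h => ⟨h.1, fun y hy => h.2.1 ⟨y, hy⟩, h.2.2⟩⟩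
  rw [e]
  exact KS_closed.inter ((isClosed_iInter fun y : J0 => closed_sub J0 (y : V)).inter
    (closed_sub _ e1))

theorem d2_rot (u : O) (p r : ℝ) (z : ℂ) (y : V) :
    (rot23 u p r (dgE (conj z) 1 z y)).d2 =
      (p : ℂ) ^ 2 * y.d2 + (r : ℂ) ^ 2 * (z ^ 2 * y.d3) - p * r * bil u (z • y.x1) := by
  rw [rot23_apply]
  simp [dgE]

/-- **The stabiliser of the first line is transitive on the lines of rank one of its Peirce
space.** -/
theorem to_e2 {x : V} (hx : x ≠ 0) (ha : adj x = 0) (h1 : x.d1 = 0) (h2 : x.x2 = 0)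
    (h3 : x.x3 = 0) :
    ∃ g : V ≃ₗ[ℂ] V, ((∀ x, cub (g x) = cub x) ∧ ∀ x y, inner ℂ (g x) (g y) = inner ℂ x y) ∧
      (∃ r : ℂ, r ≠ 0 ∧ g e1 = r • e1) ∧ ∃ s : ℂ, s ≠ 0 ∧ g x = s • e2 := by
  have hc : Continuous fun n : R (-1) (-1) (-1) => (n x).d2.re :=
    Complex.continuous_re.comp (cont_d2.comp (ev_cont x))
  obtain ⟨n, hn, hmax⟩ := (isCompact_of K1_closed fun _ h => h.is).exists_isMaxOn
    ⟨1, (⟨⟨fun _ => rfl, fun _ _ => rfl⟩, fun _ h => h, Submodule.mem_span_singleton_self _⟩ :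
      Is1 fun x => x)⟩ hc.continuousOn
  have hnI : Is1 (n : V →ₗ[ℂ] V) := hn
  obtain ⟨y, hy⟩ : ∃ y : V, n x = y := ⟨_, rfl⟩
  have hM : ∀ m : V →ₗ[ℂ] V, Is1 m → (m y).d2.re ≤ y.d2.re := by
    intro m hm
    have := hmax (a := toC (m ∘ₗ (n : V →ₗ[ℂ] V))) (hm.comp' hnI)
    rw [← hy]
    exact this
  have hay : adj y = 0 := hy ▸ hnI.is.adj_zero ha
  have hy0 : y ≠ 0 := fun h => hx (hnI.is.inj (by rw [map_zero]; exact hy.trans h))
  obtain ⟨z1, z2, z3⟩ : y.d1 = 0 ∧ y.x2 = 0 ∧ y.x3 = 0 := hy ▸ hnI.pei x ⟨h1, h2, h3⟩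
  have k1 : y.x1 = 0 := bil_zero_of_max (d := y.d2) (e := y.d3) fun u hu hun z hz p r hpr => by
    have := hM (rot23 u p r ∘ₗ dgE (conj z) 1 z) ((is1_rot hu hun hpr).comp'
      (is1_dgE (by rw [mul_one, hz]) (by rw [Complex.conj_conj, conj_swap hz]) (by simp) hz))
    rw [LinearMap.comp_apply, d2_rot] at this
    exact this
  have hd : y.d2 ≠ 0 := by
    intro hd
    have hall : ∀ m : V →ₗ[ℂ] V, Is1 m → (m y).d2 = 0 := by
      intro m hm
      obtain ⟨w, hw, hw2⟩ := exists_phase (m y).d2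
      have h1 := hM (dgE (conj w) w 1 ∘ₗ m) ((is1_dgE (by rw [mul_one, hw])
        (by rw [Complex.conj_conj, conj_swap hw]) hw (by simp)).comp' hm)
      have h2 : ((dgE (conj w) w 1 ∘ₗ m) y).d2 = w ^ 2 * (m y).d2 := rfl
      rw [h2, hw2, hd, Complex.ofReal_re, Complex.zero_re] at h1
      exact norm_le_zero_iff.1 h1
    have k3 : y.d3 = 0 := by
      have h4 := hall (rot23 1 0 1) (is1_rot (by ext <;> simp [cjo, cjq]) Oct.norm_one (by norm_num))
      rw [rot23_apply, hd, k1] at h4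
      simpa using h4
    exact hy0 (Alb.ext z1 hd k3 k1 z2 z3)
  have a1 := congrArg Alb.d1 hay
  simp only [adj, k1, Oct.norm_zero, sub_zero, d1_zero, mul_eq_zero, hd, false_or] at a1
  refine ⟨LinearEquiv.ofBijective (n : V →ₗ[ℂ] V) ⟨hnI.is.inj, hnI.is.surj⟩, hnI.is, ?_, y.d2, hd,
    ?_⟩
  · obtain ⟨r, hr⟩ := Submodule.mem_span_singleton.1 hnI.line
    refine ⟨r, ?_, hr.symm⟩
    rintro rfl
    rw [zero_smul] at hr
    have h5 : (e1 : V) = 0 := hnI.is.inj (by rw [map_zero]; exact hr.symm)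
    have h6 := congrArg Alb.d1 h5
    simp [e1] at h6
  · change n x = y.d2 • e2
    rw [hy]
    ext1 <;> simp [e2, a1, k1, z1, z2, z3]

end Vale.Agent.P011.H518.Rl
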