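import Vale.Agent.P011.H280.Rl.Gen
import Vale.Agent.P011.H518.Rl.Mv2

/-!
Reduction to diagonal elements, and the polar decomposition in the standard model.
-/

open NormedSpace Filter Topology

namespace Vale.Agent.P011.H518.Rl

open Vale.Agent.P011.MPQ Vale.Agent.P011.D4 Vale.Agent.P011.D4.Oct Vale.Agent.P011.E6
  Vale.Agent.P011.E6.Alb Vale.Agent.P011.H261.Rl Vale.Agent.P011.H280.Rl
open scoped ComplexConjugate

/-- The operator of a linear equivalence. -/
noncomputable def opE (g : V ≃ₗ[ℂ] V) : RV := LinearMap.toContinuousLinearMap (g : V →ₗ[ℂ] V)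

theorem opE_app (g : V ≃ₗ[ℂ] V) (x : V) : opE g x = g x := rfl

theorem opE_symm (g : V ≃ₗ[ℂ] V) : opE g * opE g.symm = 1 := by
  ext1 x
  rw [mul_app, opE_app, opE_app, LinearEquiv.apply_symm_apply]
  rfl

theorem opE_symm' (g : V ≃ₗ[ℂ] V) : opE g.symm * opE g = 1 := by
  ext1 x
  rw [mul_app, opE_app, opE_app, LinearEquiv.symm_apply_apply]
  rfl

theorem isU_mul {f g : RV} (hf : IsU f) (hg : IsU g) : IsU (f * g) :=
  ⟨fun x => by rw [mul_app, hf.1, hg.1], fun x y => by rw [mul_app, mul_app, hf.2, hg.2]⟩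

theorem isU_inv {g g' : RV} (hg : IsU g) (h : g * g' = 1) : IsU g' := by
  have e : ∀ x, g (g' x) = x := fun x => by rw [← mul_app, h, one_app]
  exact ⟨fun x => by rw [← hg.1, e], fun x y => by rw [← hg.2, e, e]⟩

/-- A pair of commuting elements of the compact group, the first one an involution. -/
structure Pr (J k : RV) : Prop where
  /-- an involution -/
  jj : J * J = 1
  /-- in the compact group -/
  ju : IsU J
  /-- in the compact group -/
  ku : IsU k
  /-- the elements commute -/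
  kj : k * J = J * k

theorem Pr.conjg {J k g g' : RV} (hp : Pr J k) (hg : IsU g) (h : g * g' = 1) (h' : g' * g = 1) :
    Pr (g * J * g') (g * k * g') := by
  have e : ∀ a b : RV, (g * a * g') * (g * b * g') = g * (a * b) * g' := by
    intro a b
    calc (g * a * g') * (g * b * g') = g * a * (g' * g) * b * g' := by simp only [mul_assoc]
      _ = g * (a * b) * g' := by rw [h', mul_one]; simp only [mul_assoc]
  refine ⟨?_, isU_mul (isU_mul hg hp.ju) (isU_inv hg h), isU_mul (isU_mul hg hp.ku) (isU_inv hg h),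
    ?_⟩
  · rw [e, hp.jj, mul_one, h]
  · rw [e, e, hp.kj]

theorem Con.of_conjg {J k g g' : RV} (hg : IsU g) (h : g * g' = 1) (h' : g' * g = 1)
    (hc : Con (g * J * g') (g * k * g')) : Con J k := by
  have e : ∀ a : RV, g' * (g * a * g') * g = a := by
    intro a
    calc g' * (g * a * g') * g = (g' * g) * a * (g' * g) := by simp only [mul_assoc]
      _ = a := by rw [h', one_mul, mul_one]
  have h1 := H280.Rl.Con.conjg hc (isU_inv hg h) h' h
  rwa [e, e] at h1

theorem eig_conj {g g' f : RV} (h' : g' * g = 1) {x z : V} {l s : ℂ} (hs : s ≠ 0)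
    (hx : f x = l • x) (hg : g x = s • z) : (g * f * g') z = l • z := by
  have h1 : g' z = s⁻¹ • x := by
    have h2 : g' (g x) = x := by rw [← mul_app, h', one_app]
    rw [hg, map_smul] at h2
    rw [← h2, smul_smul, inv_mul_cancel₀ hs, one_smul]
  rw [mul_app, mul_app, h1, map_smul, hx, map_smul, map_smul, hg, smul_smul, smul_smul]
  congr 1
  field_simp

/-- **Reduction to diagonal elements.** -/
theorem red {J k : RV} (hJJ : J * J = 1) (hJ : IsU J) (hk : IsU k) (hkJ : k * J = J * k)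
    (H : ∀ J' k' : RV, J' * J' = 1 → IsU J' → IsU k' → k' * J' = J' * k' →
      (∃ m1 m2 m3 l1 l2 l3 : ℂ, J' e1 = m1 • e1 ∧ J' e2 = m2 • e2 ∧ J' e3 = m3 • e3 ∧
        k' e1 = l1 • e1 ∧ k' e2 = l2 • e2 ∧ k' e3 = l3 • e3) → Con J' k') : Con J k := by
  have hp : Pr J k := ⟨hJJ, hJ, hk, hkJ⟩
  obtain ⟨x, hx, ha, ⟨l1, hl1⟩, m1, hm1⟩ := H44.Rl.exists_rank_one_alb (k := (k : V →ₗ[ℂ] V))
    (J := (J : V →ₗ[ℂ] V)) hp.ku.1 hp.ku.2 hp.ju.1 hp.ju.2
    (fun x => by
      change J (J x) = x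
      rw [← mul_app, hp.jj, one_app])
    (fun x => by
      change k (J x) = J (k x)
      rw [← mul_app, hp.kj, mul_app])
  obtain ⟨g, hg, s, hs, hgx⟩ := to_e1 hx ha
  have hgU : IsU (opE g) := hg
  refine Con.of_conjg hgU (opE_symm g) (opE_symm' g) ?_
  have hp1 := hp.conjg hgU (opE_symm g) (opE_symm' g)
  have hk1 : (opE g * k * opE g.symm) e1 = l1 • e1 :=
    eig_conj (opE_symm' g) hs (show k x = l1 • x from hl1) hgx
  have hJ1 : (opE g * J * opE g.symm) e1 = m1 • e1 :=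
    eig_conj (opE_symm' g) hs (show J x = m1 • x from hm1) hgx
  generalize opE g * k * opE g.symm = k1 at hp1 hk1 ⊢
  generalize opE g * J * opE g.symm = J1 at hp1 hJ1 ⊢
  obtain ⟨y, hy, d1, x2, x3, hay, ⟨l2, hl2⟩, m2, hm2⟩ :=
    H44.Rl.exists_rank_one_W1 (k := (k1 : V →ₗ[ℂ] V)) (J := (J1 : V →ₗ[ℂ] V)) hp1.ku.1 hp1.ku.2
    hp1.ju.1 hp1.ju.2
    (fun x => by
      change J1 (J1 x) = x
      rw [← mul_app, hp1.jj, one_app])
    (fun x => by
      change k1 (J1 x) = J1 (k1 x)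
      rw [← mul_app, hp1.kj, mul_app]) hk1 hJ1
  obtain ⟨g2, hg2, ⟨r, hr, hge⟩, s2, hs2, hgy⟩ := to_e2 hy hay d1 x2 x3
  have hgU2 : IsU (opE g2) := hg2
  refine Con.of_conjg hgU2 (opE_symm g2) (opE_symm' g2) ?_
  have hp2 := hp1.conjg hgU2 (opE_symm g2) (opE_symm' g2)
  have hk21 : (opE g2 * k1 * opE g2.symm) e1 = l1 • e1 :=
    eig_conj (opE_symm' g2) hr hk1 hge
  have hJ21 : (opE g2 * J1 * opE g2.symm) e1 = m1 • e1 :=
    eig_conj (opE_symm' g2) hr hJ1 hge
  have hk22 : (opE g2 * k1 * opE g2.symm) e2 = l2 • e2 :=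
    eig_conj (opE_symm' g2) hs2 (show k1 y = l2 • y from hl2) hgy
  have hJ22 : (opE g2 * J1 * opE g2.symm) e2 = m2 • e2 :=
    eig_conj (opE_symm' g2) hs2 (show J1 y = m2 • y from hm2) hgy
  generalize opE g2 * k1 * opE g2.symm = k2 at hp2 hk21 hk22 ⊢
  generalize opE g2 * J1 * opE g2.symm = J2 at hp2 hJ21 hJ22 ⊢
  have h3 : ∀ f : RV, IsU f → ∀ a b : ℂ, f e1 = a • e1 → f e2 = b • e2 →
      f e3 = conj (a * b) • e3 := by
    intro f hf a b ha hb
    have h4 := H44.Rl.cross_of_isE (g := (f : V →ₗ[ℂ] V)) hf.1 hf.2 e1 e2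
    change cross (f e1) (f e2) = cj (f (cj (cross e1 e2))) at h4
    have h5 : cross (e1 : V) e2 = e3 := by
      ext1 <;> simp [cross, e1, e2, e3]
    have h6 : cj (e3 : V) = e3 := by
      ext1 <;> simp [cj, e3, cjo, cjq, Oct.ext_iff, QuaternionAlgebra.ext_iff]
    rw [ha, hb, cross_smul_left, cross_smul_right, h5, h6, smul_smul] at h4
    have h7 := congrArg cj h4
    rw [H44.Rl.cj_smul, h6, H44.Rl.cj_cj] at h7
    exact h7.symm
  exact H J2 k2 hp2.jj hp2.ju hp2.ku hp2.kj ⟨m1, m2, _, l1, l2, _, hJ21, hJ22,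
    h3 _ hp2.ju _ _ hJ21 hJ22, hk21, hk22, h3 _ hp2.ku _ _ hk21 hk22⟩

end Vale.Agent.P011.H518.Rl
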