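import Vale.Agent.P011.E6.Ids

/-!
Rotations, diagonal elements and the cyclic shift of the hermitian matrices of degree three over
octonions.
-/

namespace Vale.Agent.P011.H518.Rl

open Vale.Agent.P011.MPQ Vale.Agent.P011.D4 Vale.Agent.P011.D4.Oct Vale.Agent.P011.E6
  Vale.Agent.P011.E6.Alb

variable {F : Type} [Field F] {a b c : Fˣ}

/-- The rotation of the first two coordinates with an octonion. -/
def rotF (u : Oct a b c) (p r : F) (x : Alb a b c) : Alb a b c :=
  ⟨p ^ 2 * x.d1 + r ^ 2 * x.d2 - p * r * bil u x.x3,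
    r ^ 2 * x.d1 + p ^ 2 * x.d2 + p * r * bil u x.x3, x.d3,
    p • x.x1 + r • (star u * star x.x2), p • x.x2 - r • (star x.x1 * star u),
    x.x3 + (p * r * (x.d1 - x.d2) - r ^ 2 * bil u x.x3) • u⟩

/-- The rotation as a linear map. -/
def rot (u : Oct a b c) (p r : F) : Alb a b c →ₗ[F] Alb a b c where
  toFun := rotF u p r
  map_add' x y := by
    ext1
    · simp only [rotF, d1_add, d2_add, x3_add, bil_add_right]; ring
    · simp only [rotF, d1_add, d2_add, x3_add, bil_add_right]; ring
    · simp only [rotF, d3_add]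
    · simp only [rotF, x1_add, x2_add, star_add, mul_add, smul_add]; abel
    · simp only [rotF, x1_add, x2_add, star_add, add_mul, smul_add]; abel
    · simp only [rotF, d1_add, d2_add, x3_add, bil_add_right]
      rw [add_add_add_comm, ← add_smul]
      congr 2
      ring
  map_smul' t x := by
    ext1
    · simp only [rotF, d1_smul, d2_smul, x3_smul, bil_smul_right, RingHom.id_apply]; ring
    · simp only [rotF, d1_smul, d2_smul, x3_smul, bil_smul_right, RingHom.id_apply]; ring
    · simp only [rotF, d3_smul, RingHom.id_apply]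
    · simp only [rotF, x1_smul, x2_smul, star_smul_oct, mul_smul_oct, RingHom.id_apply, smul_add]
      rw [smul_comm t p, smul_comm t r]
    · simp only [rotF, x1_smul, x2_smul, star_smul_oct, smul_mul_oct, RingHom.id_apply, smul_sub]
      rw [smul_comm t p, smul_comm t r]
    · simp only [rotF, d1_smul, d2_smul, x3_smul, bil_smul_right, RingHom.id_apply, smul_add,
        smul_smul]
      congr 2
      ring

@[simp] theorem rot_apply (u : Oct a b c) (p r : F) (x : Alb a b c) : rot u p r x = rotF u p r x :=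
  rfl

section cub

variable [NeZero (2 : F)]

/-- The product of the first two octonion coordinates. -/
theorem rot_mul {u : Oct a b c} (hu : norm u = 1) {p r : F} (h : p ^ 2 + r ^ 2 = 1)
    (y z : Oct a b c) :
    (p • y + r • (star u * star z)) * (p • z - r • (star y * star u)) =
      y * z + (p * r * (norm z - norm y) - r ^ 2 * bil (star u) (y * z)) • star u := by
  have e1 : y * (star y * star u) = norm y • star u := mul_star_mul y (star u)
  have e2 : (star u * star z) * z = norm z • star u := mul_star_mul' z (star u)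
  have e3 : (star u * star z) * (star y * star u) =
      bil (star u) (y * z) • star u - y * z := by
    rw [moufang, flex, mul_mul_eq, ← star_mul y z, star_star, Oct.norm_star, hu, one_smul]
  rw [mul_sub, add_mul, add_mul, smul_mul_oct, smul_mul_oct, smul_mul_oct, smul_mul_oct,
    mul_smul_oct, mul_smul_oct, mul_smul_oct, mul_smul_oct, e1, e2, e3]
  linear_combination (norm := module) h • (y * z)

omit [NeZero (2 : F)] in
theorem rot_norm1 {u : Oct a b c} (hu : norm u = 1) {p r : F} (y z : Oct a b c) :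
    norm (p • y + r • (star u * star z)) =
      p ^ 2 * norm y + r ^ 2 * norm z + p * r * bil (star u) (y * z) := by
  have e : bil y (star u * star z) = bil (star u) (y * z) := by
    rw [bil_mul_right', star_star, bil_comm]
  rw [Oct.norm_add, Oct.norm_smul, Oct.norm_smul, Oct.norm_mul, Oct.norm_star, Oct.norm_star, hu, bil_smul_left,
    bil_smul_right, e]
  ring

omit [NeZero (2 : F)] in
theorem rot_norm2 {u : Oct a b c} (hu : norm u = 1) {p r : F} (y z : Oct a b c) :
    norm (p • z - r • (star y * star u)) =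
      p ^ 2 * norm z + r ^ 2 * norm y - p * r * bil (star u) (y * z) := by
  have e : bil z (star y * star u) = bil (star u) (y * z) := by
    rw [bil_mul_right, star_star, bil_comm]
  rw [Oct.norm_sub, Oct.norm_smul, Oct.norm_smul, Oct.norm_mul, Oct.norm_star, Oct.norm_star, hu, bil_smul_left,
    bil_smul_right, e]
  ring

theorem cub_rot {u : Oct a b c} (hu : norm u = 1) {p r : F} (h : p ^ 2 + r ^ 2 = 1)
    (x : Alb a b c) : cub (rot u p r x) = cub x := by
  have e1 := rot_norm1 hu (p := p) (r := r) x.x1 x.x2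
  have e2 := rot_norm2 hu (p := p) (r := r) x.x1 x.x2
  have e3 := rot_mul hu h x.x1 x.x2
  have e4 : bil x.x3 (star (x.x1 * x.x2)) = bil (x.x1 * x.x2 * x.x3) 1 := tri3' _ _ _
  have e5 : bil u (star (x.x1 * x.x2)) = bil (star u) (x.x1 * x.x2) := (bil_star_left _ _).symm
  have e6 : bil u u = 2 := by rw [bil_self, hu, mul_one]
  have e7 : bil x.x3 u = bil u x.x3 := bil_comm _ _
  simp only [rot_apply, cub, rotF]
  rw [← tri3', e3, e1, e2, star_add, star_smul_oct, star_star, Oct.norm_add, Oct.norm_smul, hu,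
    bil_add_right, bil_add_left, bil_add_left, bil_smul_left, bil_smul_left, bil_smul_right,
    bil_smul_right, bil_smul_right, e5, e6, e7, e4]
  generalize bil (star u) (x.x1 * x.x2) = t
  generalize bil u x.x3 = s
  generalize norm x.x1 = n1
  generalize norm x.x2 = n2
  generalize norm x.x3 = n3
  generalize bil (x.x1 * x.x2 * x.x3) 1 = w
  linear_combination (x.d3 * (x.d1 * x.d2 * (p ^ 2 + r ^ 2 + 1) + p * r * s * (x.d1 - x.d2) -
    r ^ 2 * s ^ 2) - (p ^ 2 + r ^ 2 + 1) * (x.d1 * n1 + x.d2 * n2) - p * r * (x.d1 - x.d2) * t +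
    p * r * s * (n1 - n2) + 2 * r ^ 2 * s * t) * h

end cub

theorem tf_rot {u : Oct a b c} (hu : norm u = 1) {p r : F} (h : p ^ 2 + r ^ 2 = 1)
    (x y : Alb a b c) : tf (rot u p r x) (rot u p r y) = tf x y := by
  have e6 : bil u u = 2 := by rw [bil_self, hu, mul_one]
  have f1 : bil (star u * star x.x2) (star u * star y.x2) = bil x.x2 y.x2 := by
    rw [bil_mul_mul_left, Oct.norm_star, hu, one_mul, bil_star_star]
  have f2 : bil (star x.x1 * star u) (star y.x1 * star u) = bil x.x1 y.x1 := by
    rw [bil_mul_mul_right, Oct.norm_star, hu, one_mul, bil_star_star]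
  have f3 : bil (star x.x1 * star u) y.x2 = bil (star u) (x.x1 * y.x2) := by
    rw [bil_mul_left, star_star]
  have f4 : bil x.x1 (star u * star y.x2) = bil (star u) (x.x1 * y.x2) := by
    rw [bil_comm, bil_mul_left', star_star]
  have f5 : bil x.x2 (star y.x1 * star u) = bil (star u) (y.x1 * x.x2) := by
    rw [bil_comm, bil_mul_left, star_star]
  have f6 : bil (star u * star x.x2) y.x1 = bil (star u) (y.x1 * x.x2) := by
    rw [bil_mul_left', star_star]
  simp only [rot_apply, tf, rotF, bil_add_left, bil_add_right, bil_sub_left, bil_sub_right,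
    bil_smul_left, bil_smul_right, e6, f1, f2, f3, f4, f5, f6, bil_comm x.x3 u]
  linear_combination ((x.d1 * y.d1 + x.d2 * y.d2) * (p ^ 2 + r ^ 2 + 1) -
    p * r * (x.d1 - x.d2) * bil u y.x3 - p * r * (y.d1 - y.d2) * bil u x.x3 +
    2 * r ^ 2 * bil u x.x3 * bil u y.x3 + bil x.x1 y.x1 + bil x.x2 y.x2) * h

/-- The diagonal elements. -/
def dgE (z1 z2 z3 : F) : Alb a b c →ₗ[F] Alb a b c where
  toFun x := ⟨z1 ^ 2 * x.d1, z2 ^ 2 * x.d2, z3 ^ 2 * x.d3, (z2 * z3) • x.x1, (z3 * z1) • x.x2,
    (z1 * z2) • x.x3⟩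
  map_add' x y := by ext1 <;> simp [mul_add]
  map_smul' t x := by
    ext1
    · simp; ring
    · simp; ring
    · simp; ring
    · simp only [x1_smul, RingHom.id_apply]; rw [smul_comm]
    · simp only [x2_smul, RingHom.id_apply]; rw [smul_comm]
    · simp only [x3_smul, RingHom.id_apply]; rw [smul_comm]

theorem cub_dgE {z1 z2 z3 : F} (h : z1 * z2 * z3 = 1) (x : Alb a b c) :
    cub (dgE z1 z2 z3 x) = cub x := by
  simp only [dgE, LinearMap.coe_mk, AddHom.coe_mk, cub, Oct.norm_smul, smul_mul_oct, mul_smul_oct,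
    bil_smul_left]
  have h2 : (z1 * z2 * z3) ^ 2 = 1 := by rw [h, one_pow]
  linear_combination (x.d1 * x.d2 * x.d3 - x.d1 * norm x.x1 - x.d2 * norm x.x2 -
    x.d3 * norm x.x3 + bil (x.x1 * x.x2 * x.x3) 1) * h2

/-- The cyclic shift. -/
def cyc : Alb a b c →ₗ[F] Alb a b c where
  toFun x := ⟨x.d3, x.d1, x.d2, x.x3, x.x1, x.x2⟩
  map_add' _ _ := rfl
  map_smul' _ _ := rfl

theorem cub_cyc (x : Alb a b c) : cub (cyc x) = cub x := by
  have e : bil (x.x3 * x.x1 * x.x2) 1 = bil (x.x1 * x.x2 * x.x3) 1 :=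
    (tri1 x.x3 x.x1 x.x2).symm.trans (tri3 x.x1 x.x2 x.x3)
  simp only [cyc, LinearMap.coe_mk, AddHom.coe_mk, cub, e]
  ring

end Vale.Agent.P011.H518.Rl
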